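import Vale.Agent.P147.Bal.Oscillate

/-!
# Concatenations of irreducible prefixes

A path which continues a concatenation of `k` irreducible prefixes without going below its final
level determines the prefixes. Hence the product law of the prefixes, times the probability of
staying, is dominated on cylinders by the annealed law.
-/

open MeasureTheory Set Filter Topology
open scoped ENNReal

namespace Vale.Agent.P147.Bal

open Vale.Agent.P147.Proj (dsp verts iid)

variable {d : ℕ} {e : Step d} {μ : Measure (Row d)}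

lemma head_ext_stay {η ρ δ : List (Step d)} (h1 : Adm e η) (h3 : Adm e (η ++ ρ))
    (h2 : ∀ v ∈ verts 0 (ρ ++ δ), 0 ≤ lev e v) : Adm e ρ := by
  have key : ∀ v ∈ verts 0 ρ,
      0 ≤ lev e v ∧ lev e v < lev e (dsp (η ++ ρ)) - lev e (dsp η) := by
    intro v hv
    have ha := h2 v (mem_verts_append.2 (Or.inl hv))
    have hb := (h3.1 (v + dsp η) (mem_verts_append.2 (Or.inr (by simpa using hv)))).2
    rw [← h3.2, lev_add] at hb
    exact ⟨ha, by omega⟩
  have hsub : lev e (dsp (η ++ ρ)) - lev e (dsp η) = lev e (dsp ρ) := by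
    rw [Proj.dsp_append, lev_add]; ring
  have hnn : 0 ≤ lev e (dsp ρ) := by
    by_cases hρ : ρ = []
    · simp [hρ]
    · have := key 0 (self_mem_verts 0 hρ); simp at this; omega
  refine ⟨fun v hv => ?_, by simp [hgt, hnn]⟩
  have := key v hv
  simp only [hgt, Int.toNat_of_nonneg hnn]
  omega

lemma adm_flatten : ∀ {t : List (List (Step d))}, (∀ η ∈ t, Irr e η) →
    Adm e t.flatten ∧ hgt e t.flatten = (t.map (hgt e)).sum
  | [], _ => ⟨adm_nil, hgt_nil⟩
  | η :: t, h => by
      obtain ⟨h1, h2⟩ := adm_flatten fun x hx => h x (List.mem_cons_of_mem _ hx)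
      obtain ⟨h3, h4⟩ := (h η (List.mem_cons_self ..)).2.1.append h1
      simp only [List.flatten_cons, List.map_cons, List.sum_cons]
      exact ⟨h3, by rw [h4, h2]⟩

lemma cw_flatten [IsProbabilityMeasure μ] : ∀ {t : List (List (Step d))}, (∀ η ∈ t, Irr e η) →
    cw μ t.flatten = (t.map (cw μ)).prod
  | [], _ => cw_nil
  | η :: t, h => by
      have h' : ∀ x ∈ t, Irr e x := fun x hx => h x (List.mem_cons_of_mem _ hx)
      simp only [List.flatten_cons, List.map_cons, List.prod_cons]
      rw [cw_append (h η (List.mem_cons_self ..)).2.1 (adm_flatten h').1, cw_flatten h']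

lemma stay_verts_append {Γ ρ : List (Step d)} (hΓ : Adm e Γ) (hρ : ∀ v ∈ verts 0 ρ, 0 ≤ lev e v) :
    ∀ v ∈ verts 0 (Γ ++ ρ), 0 ≤ lev e v := by
  intro v hv
  rcases mem_verts_append.1 hv with h | h
  · exact (hΓ.1 v h).1
  · have := hρ _ h
    rw [lev_sub, hΓ.2] at this
    omega

/-- A stretch which stays above its start can follow only one concatenation of a given number of
irreducible prefixes. -/
lemma flatten_unique : ∀ (t t' : List (List (Step d))) (ρ : List (Step d)),
    (∀ η ∈ t, Irr e η) → (∀ η ∈ t', Irr e η) → t.length = t'.length →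
      (∀ v ∈ verts 0 ρ, 0 ≤ lev e v) → t.flatten ++ ρ = t'.flatten → t = t'
  | [], t', _, _, _, hl, _, _ => (List.length_eq_zero_iff.1 hl.symm).symm
  | η :: t, [], _, _, _, hl, _, _ => absurd hl (by simp)
  | η :: t, η' :: t', ρ, ht, ht', hl, hρ, h => by
      have hη := ht η (List.mem_cons_self ..)
      have hη' := ht' η' (List.mem_cons_self ..)
      have hts : ∀ x ∈ t, Irr e x := fun x hx => ht x (List.mem_cons_of_mem _ hx)
      have hts' : ∀ x ∈ t', Irr e x := fun x hx => ht' x (List.mem_cons_of_mem _ hx)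
      simp only [List.flatten_cons, List.append_assoc] at h
      have hh : η = η' := by
        rcases List.append_eq_append_iff.1 h with ⟨a, h1, h2⟩ | ⟨a, h1, h2⟩
        · have ha : Adm e a := head_ext_stay hη.2.1 (h1 ▸ hη'.2.1)
            (h2 ▸ stay_verts_append (adm_flatten hts).1 hρ)
          rcases hη'.2.2 η a h1 hη.2.1 ha with h3 | h3
          · exact absurd h3 hη.1
          · simp [h1, h3]
        · have ha : Adm e a := head_ext hη'.2.1 (h1 ▸ hη.2.1) (h2 ▸ (adm_flatten hts').1)
          rcases hη.2.2 η' a h1 hη'.2.1 ha with h3 | h3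
          · exact absurd h3 hη'.1
          · simp [h1, h3]
      subst hh
      rw [flatten_unique t t' ρ hts hts' (by simpa using hl) hρ (List.append_cancel_left h)]

lemma cw_append_stay [IsProbabilityMeasure μ] {Γ δ : List (Step d)} (h1 : Adm e Γ)
    (h2 : ∀ v ∈ verts 0 δ, 0 ≤ lev e v) : cw μ (Γ ++ δ) = cw μ Γ * cw μ δ := by
  have hd : ∀ v ∈ verts 0 Γ, v ∉ verts (0 + dsp Γ) δ := by
    intro v hv hv'
    have a := (h1.1 v hv).2
    have b := h2 _ (mem_verts_shift.1 hv')
    rw [lev_sub, h1.2] at b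
    omega
  have hs : cw μ δ = ∫⁻ ω, pw ω (0 + dsp Γ) δ ∂iid μ := (lintegral_pw _ _).symm
  rw [← lintegral_pw_mul_disjoint hd, cw]
  exact lintegral_congr fun ω => pw_append ω 0 Γ δ

open Classical in
/-- The extensions of `γ` of a fixed length have total mass at most that of `γ`. -/
lemma tsum_prefix_le [IsProbabilityMeasure μ] (γ : List (Step d)) (N : ℕ) :
    ∑' Δ, (if Δ.length = N ∧ γ <+: Δ then cw μ Δ else 0) ≤ cw μ γ := by
  set S : Set (List (Step d)) := {Δ | Δ.length = N}
  have hS : ∀ a b, a ∈ S → a ++ b ∈ S → b = [] := by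
    intro a b ha hb
    have e1 : a.length = N := ha
    have e2 : (a ++ b).length = N := hb
    rw [List.length_append] at e2
    exact List.length_eq_zero_iff.1 (by omega)
  rw [← Function.Injective.tsum_eq (g := fun δ => γ ++ δ) (fun a b => List.append_cancel_left)
    (f := fun Δ => if Δ.length = N ∧ γ <+: Δ then cw μ Δ else 0) ?_]
  · refine le_of_eq_of_le ?_ (lintegral_mono (μ := iid μ) fun ω => tsum_ext_le S hS ω 0 γ)
    rw [lintegral_tsum fun δ => ?_]
    · refine tsum_congr fun δ => ?_
      by_cases h : γ ++ δ ∈ S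
      · rw [if_pos ⟨h, List.prefix_append ..⟩]
        simp only [indicator_of_mem h]
        rfl
      · rw [if_neg fun h' => h h'.1]
        simp only [indicator_of_notMem h, lintegral_zero]
    · by_cases h : γ ++ δ ∈ S
      · simpa only [indicator_of_mem h] using (measurable_pw 0 _).aemeasurable
      · simpa only [indicator_of_notMem h] using aemeasurable_const
  · intro Δ hΔ
    simp only [Function.mem_support, ne_eq, ite_eq_right_iff, not_forall] at hΔ
    obtain ⟨⟨-, δ, hδ⟩, -⟩ := hΔ
    exact ⟨δ, hδ⟩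

open Classical in
/-- The product masses of the concatenations which extend `γ`, times the probability of staying,
are at most the mass of `γ`. -/
lemma tsum_flatten_le [IsProbabilityMeasure μ] {s : ℝ≥0∞} (hs : ∀ n, s ≤ stayMass μ e n)
    (γ : List (Step d)) {ι : Type*} (t : ι → List (List (Step d))) (ht : Function.Injective t)
    (hirr : ∀ i, ∀ η ∈ t i, Irr e η) {k : ℕ} (hk : ∀ i, (t i).length = k) :
    s * ∑' i, (if γ <+: (t i).flatten then cw μ (t i).flatten else 0) ≤ cw μ γ := by
  rw [← ENNReal.tsum_mul_left, ENNReal.tsum_eq_iSup_sum]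
  refine iSup_le fun F => ?_
  set N := F.sup fun i => (t i).flatten.length with hN
  set g : ι → List (Step d) → ℝ≥0∞ := fun i Δ =>
    if γ <+: (t i).flatten ∧ Δ.length = N ∧
      ∃ δ, Stay e 0 0 δ ∧ Δ = (t i).flatten ++ δ then cw μ Δ else 0 with hg
  have hone : ∀ i ∈ F, s * (if γ <+: (t i).flatten then cw μ (t i).flatten else 0)
      ≤ ∑' Δ, g i Δ := by
    intro i hi
    by_cases hp : γ <+: (t i).flatten
    swap
    · simp [hp]
    rw [if_pos hp]
    have hle : (t i).flatten.length ≤ N := Finset.le_sup (f := fun i => (t i).flatten.length) hi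
    refine le_trans (mul_le_mul_left (hs (N - (t i).flatten.length)) _) ?_
    refine le_trans ?_ (ENNReal.tsum_comp_le_tsum_of_injective
      (f := fun δ => (t i).flatten ++ δ) (fun a b => List.append_cancel_left) _)
    rw [stayMass, ← ENNReal.tsum_mul_right]
    refine ENNReal.tsum_le_tsum fun δ => ?_
    split_ifs with h
    · have hc : γ <+: (t i).flatten ∧ ((t i).flatten ++ δ).length = N ∧
          ∃ δ', Stay e 0 0 δ' ∧ (t i).flatten ++ δ = (t i).flatten ++ δ' :=
        ⟨hp, by rw [List.length_append]; omega, δ, h.2, rfl⟩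
      simp only [hg, if_pos hc, cw_append_stay (adm_flatten (hirr i)).1 h.2.1]
      rw [mul_comm]
    · simp
  refine (Finset.sum_le_sum hone).trans ?_
  rw [← Summable.tsum_finsetSum fun _ _ => ENNReal.summable]
  refine (ENNReal.tsum_le_tsum fun Δ => ?_).trans (tsum_prefix_le γ N)
  by_cases hex : ∃ i ∈ F, g i Δ ≠ 0
  swap
  · push Not at hex
    rw [Finset.sum_eq_zero hex]
    exact zero_le
  obtain ⟨i, hi, hne⟩ := hex
  have spec : ∀ j, g j Δ ≠ 0 → γ <+: (t j).flatten ∧ Δ.length = N ∧
      ∃ δ, Stay e 0 0 δ ∧ Δ = (t j).flatten ++ δ := fun j hj => by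
    by_contra h
    exact hj (if_neg h)
  obtain ⟨hp, hl, δ, hδ, hΔ⟩ := spec i hne
  rw [Finset.sum_eq_single i (fun j _ hji => ?_) (fun h => absurd hi h), hg]
  · simp only [if_pos (show γ <+: (t i).flatten ∧ Δ.length = N ∧
      ∃ δ, Stay e 0 0 δ ∧ Δ = (t i).flatten ++ δ from ⟨hp, hl, δ, hδ, hΔ⟩)]
    rw [if_pos ⟨hl, hΔ ▸ hp.trans (List.prefix_append ..)⟩]
  · by_contra hj
    obtain ⟨-, -, δ', hδ', hΔ'⟩ := spec j hj
    rw [hΔ] at hΔ'
    refine hji (ht ?_)
    have hlen : (t i).length = (t j).length := by rw [hk, hk]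
    rcases List.append_eq_append_iff.1 hΔ' with ⟨a, h1, h2⟩ | ⟨a, h1, h2⟩
    · refine (flatten_unique (t i) (t j) a (hirr i) (hirr j) hlen (fun v hv => ?_) h1.symm).symm
      exact hδ.1 v (h2 ▸ mem_verts_append.2 (Or.inl hv))
    · refine flatten_unique (t j) (t i) a (hirr j) (hirr i) hlen.symm (fun v hv => ?_) h1.symm
      exact hδ'.1 v (h2 ▸ mem_verts_append.2 (Or.inl hv))

end Vale.Agent.P147.Bal
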